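import Vale.Agent.P269L.V.Chart
import Vale.Agent.P269L.L.Defs
import Vale.Agent.P269L.U.Main

/-!
# The local value of the limit class is the number of sheets
-/

namespace Vale.Agent.P269L.V

open Set Function Topology Filter P291Z P269 P269.Orb P269.Holo MulAction

variable {G M T C X Y Z P V W L : Type} [Group G] [TopologicalSpace G] [TopologicalSpace M]
  [TopologicalSpace T] [TopologicalSpace C] [TopologicalSpace X] [TopologicalSpace Y]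
  [TopologicalSpace Z] [TopologicalSpace P] [MulAction G M] [MulAction G T] [MulAction G C]
  [NormedAddCommGroup V] [NormedSpace ℂ V] [NormedAddCommGroup W] [NormedSpace ℂ W]
  [NormedAddCommGroup L] [NormedSpace ℂ L] {n : ℕ} {ι : T → V} {ιM : M → W} {π : T → X}
  {πM : M → Y} {τ : T → G} {w : T → Fin n → ℂ}

/-- `g` is an equivariant holomorphic embedding which induces `γ` on the orbit spaces. -/
structure Emb (G : Type) [Group G] [MulAction G M] [MulAction G T] (ιM : M → W) (ι : T → V)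
    (πM : M → Y) (π : T → X) (g : M → T) (γ : Y → X) : Prop where
  cont : Continuous g
  inj : Injective g
  eqv : ∀ (k : G) m, g (k • m) = k • g m
  map : ∀ m, γ (πM m) = π (g m)
  hol : ∀ m, HolAt ιM (fun x => ι (g x)) m
  hol' : ∀ m, HolAt (fun x => ι (g x)) ιM m

theorem ev_eq_of_inj {E F : Type} [TopologicalSpace E] [TopologicalSpace F] [T2Space E] {N : ℕ}
    {φ : Fin N → F → E} {y : F} (h1 : ∀ k, ContinuousAt (φ k) y) (h2 : Injective fun k => φ k y)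
    {b : (Fin n → ℂ) → E} {p : (Fin n → ℂ) → F} (hb : ContinuousAt b 0)
    (hp : Tendsto p (𝓝 0) (𝓝 y)) (h0 : p 0 = y) (h : ∀ᶠ z in 𝓝 0, ∃ k, b z = φ k (p z)) :
    ∃ k, ∀ᶠ z in 𝓝 0, b z = φ k (p z) := by
  obtain ⟨k, hk⟩ := h.self_of_nhds
  have : ∀ k', ∀ᶠ z in 𝓝 0, b z = φ k' (p z) → k' = k := fun k' => by
    by_cases e : k' = k
    · exact .of_forall fun _ _ => e
    · refine ((hb.tendsto.prodMk_nhds ((h1 k').tendsto.comp hp)).eventually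
        (isClosed_diagonal.isOpen_compl.mem_nhds fun e' => e (h2 ?_))).mono
        fun z hz e' => absurd e' hz
      rw [h0] at hk
      exact (Eq.symm e').trans hk
  exact ⟨k, (h.and (eventually_all.2 this)).mono fun z ⟨⟨k', e1⟩, e2⟩ => e2 k' e1 ▸ e1⟩

/-- from a covering upstairs to the count in a slice -/
theorem cnt {Γ S : Type} [Group Γ] [Fintype Γ] [TopologicalSpace S] [Nonempty S]
    [ContinuousSMul G T] (hπ : IsQuo G π) (hι : IsEmbedding ι)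
    (ha : ∀ (k : G) t, HolAt ι (fun s => ι (k • s)) t) (hM : HolOrb G ιM n) (hπM : IsQuo G πM)
    {β : BM Y} (hβ : ∀ ψ : (Fin n → ℂ) → M, IsSlice G ιM ψ → Val β (πM ∘ ψ) (stab G (ψ 0)))
    {g : M → T} {γ : Y → X}
    (hg : Emb G ιM ι πM π g γ) {a : Γ → S → S} {f : S → T} {c : Γ → S → G} (h : IsTS a f c)
    (hf : IsEmbedding f) {O : Set T} (hO : IsOpen O) (hr : ∀ x, x ∈ range f ↔ x ∈ O ∧ τ x = 1)
    (h1 : ∀ x ∈ O, ContinuousAt τ x ∧ HolAt ι w x) {A : Set G} (hA : A ∈ 𝓝 1)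
    (h2 : ∀ k ∈ A, ∀ x ∈ O, τ (k • x) = k * τ x ∧ w (k • x) = w x) {B U : Set (V × ℂ)}
    {p : V × ℂ → (L × (Fin n → ℂ)) × ℂ} {k₁ : G} {a₁ : L} {v : Fin n → ℂ} {t : ℂ} {N : ℕ}
    (h3 : ∀ x, (ι (k₁ • f x), t) ∈ U ∧ p (ι (k₁ • f x), t) = ((a₁, w (f x)), t) ∧
      (f x ∈ range g → (ι (k₁ • f x), t) ∈ B))
    (h4 : ∀ b ∈ U, b ∈ B → p b = ((a₁, v), t) → ∃ x, f x ∈ range g ∧ b = (ι (k₁ • f x), t))
    (hc : P269L.L.Cov B U p N ((a₁, v), t)) {D : Set S}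
    (hD : ∀ x, f x ∈ range g → w (f x) = v → x ∈ D) :
    Cnt a (π ∘ f) (fun x => w (f x)) γ β v D N := by
  have := hM.grp
  have := hM.orb.contSMul
  have := hM.complete
  obtain ⟨φ, k1, k2, k3⟩ := hc
  have e1 : ∀ x y, π (f x) = γ y → ∃ m, g m = f x ∧ πM m = y := fun x y e => by
    obtain ⟨m, rfl⟩ := hπM.surj y
    obtain ⟨k, hk⟩ := (hπ.eq_iff _ _).1 (e.trans (hg.map m)).symm
    exact ⟨k • m, (hg.eqv k m).trans hk, hπM.smul k m⟩
  let F : Set (S × Y) := {q | w (f q.1) = v ∧ π (f q.1) = γ q.2}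
  have e2 : InjOn (fun q : S × Y => (ι (k₁ • f q.1), t)) F := fun q hq q' hq' e => by
    have e3 : f q.1 = f q'.1 := MulAction.injective k₁ (hι.injective (congrArg Prod.fst e))
    obtain ⟨m, e4, e5⟩ := e1 _ _ hq.2
    obtain ⟨m', e6, e7⟩ := e1 _ _ hq'.2
    exact Prod.ext (hf.injective e3) (by rw [← e5, ← e7, hg.inj (e4.trans (e3.trans e6.symm))])
  have e3 : (fun q : S × Y => (ι (k₁ • f q.1), t)) '' F = range fun k => φ k ((a₁, v), t) := by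
    ext b
    rw [mem_range, exists_congr fun k => eq_comm, ← k3.self_of_nhds]
    constructor
    · rintro ⟨q, hq, rfl⟩
      exact ⟨(h3 _).1, (h3 _).2.2 ((e1 _ _ hq.2).imp fun _ h => h.1), hq.1 ▸ (h3 _).2.1⟩
    · rintro ⟨e4, e5, e6⟩
      obtain ⟨x, ⟨m, e7⟩, rfl⟩ := h4 b e4 e5 e6
      exact ⟨(x, πM m), ⟨congrArg (fun y => y.1.2) ((h3 x).2.1.symm.trans e6),
        by rw [hg.map, e7]⟩, rfl⟩
  have e4 : F.Finite := Finite.of_finite_image (e3 ▸ finite_range _) e2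
  refine ⟨e4.toFinset, ?_, fun q => e4.mem_toFinset, fun q hq => ?_⟩
  · rw [← ncard_eq_toFinset_card F e4, ← e2.ncard_image, e3, ← Nat.card_coe_set_eq,
      Nat.card_range_of_injective k2, Nat.card_fin]
  obtain ⟨x, y⟩ := q
  obtain ⟨e5, e6⟩ := e4.mem_toFinset.1 hq
  obtain ⟨m, e7, rfl⟩ := e1 _ _ e6
  obtain ⟨ψ, e8, rfl⟩ := hM.slice m
  obtain ⟨e9, e10⟩ := (hr _).1 ⟨x, rfl⟩
  have c1 : ∀ᶠ z in 𝓝 0, ContinuousAt ψ z := e8.eventually.mono fun z hz => by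
    have := ContinuousAt.comp_of_eq (f := fun y => y - z) (x := z) hz.cont (by fun_prop)
      (sub_self z)
    simpa only [comp_def, sub_add_cancel] using this
  have c2 : Tendsto (fun z => g (ψ z)) (𝓝 0) (𝓝 (f x)) :=
    e7 ▸ hg.cont.continuousAt.tendsto.comp e8.cont
  have c3 : Tendsto (fun z => (τ (g (ψ z)))⁻¹) (𝓝 0) (𝓝 1) := by
    simpa only [e10, inv_one, comp_apply] using ((h1 _ e9).1.tendsto.comp c2).inv
  have c4 : ∀ᶠ z in 𝓝 0, f (invFun f ((τ (g (ψ z)))⁻¹ • g (ψ z))) = (τ (g (ψ z)))⁻¹ • g (ψ z) := by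
    filter_upwards [c2.eventually (hO.mem_nhds e9), c3.eventually hA,
      (one_smul G (f x) ▸ c3.smul c2).eventually (hO.mem_nhds e9)] with z b1 b2 b3
    exact invFun_eq ((hr _).2 ⟨b3, (h2 _ b2 _ b1).1.trans (inv_mul_cancel _)⟩)
  have c5 : invFun f ((τ (g (ψ 0)))⁻¹ • g (ψ 0)) = x := hf.injective (by
    rw [c4.self_of_nhds, e7, e10, inv_one, one_smul])
  have c6 : ∀ᶠ z in 𝓝 0, ContinuousAt (fun z => invFun f ((τ (g (ψ z)))⁻¹ • g (ψ z))) z := by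
    filter_upwards [c1, c4.eventually_nhds, c2.eventually (hO.mem_nhds e9)] with z b1 b2 b3
    have b4 := hg.cont.continuousAt.comp b1
    exact hf.isInducing.continuousAt_iff.2 (((ContinuousAt.comp (g := τ) (f := g ∘ ψ) (h1 _ b3).1 b4).inv.smul
      b4).congr (b2.mono fun _ e => e.symm))
  refine ⟨hD x ⟨_, e7⟩ e5, πM ∘ ψ, fun z => invFun f ((τ (g (ψ z)))⁻¹ • g (ψ z)), rfl, c5,
    hπM.cont.continuousAt.comp e8.cont, (c6.and c4).mono fun z hz => ⟨hz.1, ?_⟩, ?_,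
    fun r hr' => ?_⟩
  · rw [comp_apply, hz.2, hπ.smul, comp_apply, hg.map]
  · rw [h.card_stab, ← e7, show stabilizer G (g (ψ 0)) = stabilizer G (ψ 0) from
      Subgroup.ext fun k => by rw [mem_stabilizer_iff, mem_stabilizer_iff, ← hg.eqv, hg.inj.eq_iff]]
    exact hβ ψ e8
  set η := fun z => invFun f ((τ (g (ψ z)))⁻¹ • g (ψ z)) with hη
  have d0 : η 0 = x := c5
  have d1 : ContinuousAt η 0 := c6.self_of_nhds
  have d2 : ∀ᶠ z in 𝓝 0, f (a r (η z)) = (c r (η z) * (τ (g (ψ z)))⁻¹) • g (ψ z) :=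
    c4.mono fun z hz => by rw [h.equiv, mul_smul]; exact congrArg _ hz
  have d3 : Tendsto (fun z => c r (η z) * (τ (g (ψ z)))⁻¹) (𝓝 0) (𝓝 (c r x)) := by
    simpa only [d0, mul_one, comp_apply] using ((h.cont_c r).continuousAt.tendsto.comp d1).mul c3
  have d4 : Tendsto (fun z => c r x • g (ψ z)) (𝓝 0) (𝓝 (f (a r x))) :=
    (h.equiv r x).symm ▸ c2.const_smul _
  have d5 := ((hr _).1 ⟨a r x, rfl⟩).1
  have d6 : ∀ᶠ z in 𝓝 0, w (f (a r (η z))) = w (c r x • g (ψ z)) := by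
    filter_upwards [d2, d4.eventually (hO.mem_nhds d5),
      (mul_inv_cancel (c r x) ▸ d3.mul_const (c r x)⁻¹).eventually hA] with z b1 b2 b3
    rw [b1, ← (h2 _ b3 _ b2).2, smul_smul, inv_mul_cancel_right]
  have d7 : AnalyticAt ℂ (fun z => w (f (a r (η z)))) 0 := by
    have b1 := hg.cont.continuousAt.comp e8.cont
    refine AnalyticAt.congr (HolAt.an_comp (u := fun z => c r x • g (ψ z)) (f := w) (ι := ι) ?_
      (b1.const_smul _) ((ha _ _).an_comp (u := fun z => g (ψ z)) b1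
        ((hg.hol _).an_comp e8.cont e8.2.1))) (d6.mono fun _ e => e.symm)
    rw [e7, ← h.equiv]
    exact (h1 _ d5).2
  have d8 : w (f (a r (η 0))) = v := d0 ▸ hr'
  have d9 : Tendsto (fun z => ((a₁, w (f (a r (η z)))), t)) (𝓝 0) (𝓝 ((a₁, v), t)) :=
    (tendsto_const_nhds.prodMk_nhds (d8 ▸ d7.continuousAt.tendsto)).prodMk_nhds tendsto_const_nhds
  obtain ⟨k, d10⟩ := ev_eq_of_inj (fun k => (k1 k).continuousAt) k2
    (b := fun z => (ι (k₁ • f (a r (η z))), t)) ((hι.continuous.continuousAt.comp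
      (((hf.continuous.comp (h.cont_a r)).continuousAt.comp d1).const_smul k₁)).prodMk
        continuousAt_const) d9 (by rw [d8]) (by
      filter_upwards [d9.eventually k3, d2] with z b1 b2
      exact (b1 _).1 ⟨(h3 _).1, (h3 _).2.2 ⟨_, (hg.eqv _ _).trans b2.symm⟩, (h3 _).2.1⟩)
  refine pos hM e8 (k := fun z => k₁ * (c r (η z) * (τ (g (ψ z)))⁻¹)) (continuousAt_const.mul
    (((h.cont_c r).continuousAt.comp d1).mul ?_)) (hg.hol' _) (sub_eq_zero.2 d8)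
    (d7.sub analyticAt_const) (R := fun y => (φ k ((a₁, y + v), t)).1)
    (analyticAt_fst.comp (AnalyticAt.comp_of_eq (k1 k) ((analyticAt_const.prod
      (analyticAt_id.add analyticAt_const)).prod analyticAt_const) (by simp))) ?_
  · rwa [ContinuousAt, e7, e10, inv_one]
  · filter_upwards [d2, d10] with z b1 b2
    rw [sub_add_cancel, ← b2, b1, hg.eqv, mul_smul]

/-- **The local value of the limit class.** -/
theorem vl_lm [CompleteSpace V] (hT : Orb G T) (hπ : IsQuo G π) (hι : IsEmbedding ι)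
    (ha : ∀ (k : G) t, HolAt ι (fun s => ι (k • s)) t) (hM : HolOrb G ιM n) (hπM : IsQuo G πM)
    {β : BM Y} (hβ : ∀ ψ : (Fin n → ℂ) → M, IsSlice G ιM ψ → Val β (πM ∘ ψ) (stab G (ψ 0)))
    {πC : C → Z}
    (hπC : IsQuo G πC) {j : C → T} (hj : IsEmbedding j) (je : ∀ (k : G) c, j (k • c) = k • j c)
    {i : Z → X} (hi : ∀ c, i (πC c) = π (j c)) [Nice X] [Nice Y] {l : Filter P} {γ : P → Y → X}
    (h : Dg l γ i) {g : P → M → T} (hg : ∀ᶠ s in l, Emb G ιM ι πM π (g s) (γ s)) {ε : P → ℂ}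
    (hε : Tendsto ε l (𝓝[≠] 0)) {φ : (Fin n → ℂ) → C} (hφ : IsSlice G (fun c => ι (j c)) φ)
    {u : G → L} {e : L → G} (gc : GC ι u e τ (j (φ 0))) {B : Set (V × ℂ)}
    (hB : ∀ᶠ b in 𝓝 (ι (j (φ 0)), (0 : ℂ)), (b.2 = 0 → (b ∈ B ↔ ∃ c, ι (j c) = b.1)) ∧
      ∀ s, b.2 = ε s → ε s ≠ 0 → (b ∈ B ↔ ∃ m, ι (g s m) = b.1)) :
    ∃ (w : V × ℂ → L × (Fin n → ℂ)) (s : L × (Fin n → ℂ) → V × ℂ),
      AnalyticAt ℂ w (ι (j (φ 0)), 0) ∧ AnalyticAt ℂ s (w (ι (j (φ 0)), 0)) ∧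
      s (w (ι (j (φ 0)), 0)) = (ι (j (φ 0)), 0) ∧
      (∀ᶠ y in 𝓝 (w (ι (j (φ 0)), 0)), s y ∈ B ∧ (s y).2 = 0 ∧ w (s y) = y) ∧
      (∀ᶠ z in 𝓝 (ι (j (φ 0)), (0 : ℂ)), z ∈ B → z.2 = 0 → z = s (w z)) ∧ GCh (πC ∘ φ) ∧
      ∀ N, P269L.L.Sheets B (ι (j (φ 0)), 0) (fun z => (w z, z.2)) N →
        U.Vl (h.lm β) (πC ∘ φ) (N / stab G (φ 0)) := by
  have := hT.grp
  have := hT.nice
  have := hT.contSMul
  have : Nice Z := Nice.of_isEmbedding h.emb.isEmbedding h.emb.isClosed_range.isLocallyClosed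
  obtain ⟨w, hw⟩ := exists_co hι.continuous hj.isInducing je hφ gc
  obtain ⟨W, s, h1, h2, h3, h4, h5, h6, h7⟩ := coords hι.isInducing hj.continuous je hφ gc hw
    (hB.mono fun _ h => h.1)
  refine ⟨fun b => W b.1, s, AnalyticAt.comp (g := W) h1 analyticAt_fst, by simpa only [h3] using h4,
    by simpa only [h3] using h5, by simpa only [h3] using h6, h7, ?_, ?_⟩
  · obtain ⟨Γ, S, _, _, _, a, f, c, O, U, h0, a', k, -, -, -, -, -, -, -, k1, -⟩ :=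
      exists_chart hT hπC hι.continuous ha hj je hi hπ hφ gc hw univ_mem
    exact k1.gch
  rintro N ⟨δ, h8, h9, U₀, h10, h11, h12⟩ b₀ c₀ b1 b2 b3
  simp only [h3] at h8 h9 h11 h12
  obtain ⟨R, h13, R', h14, h15⟩ := mem_nhds_prod_iff.1 (inter_mem h10 hB)
  have h16 : Tendsto (fun q : G × T => q.1 • q.2) (𝓝 (1, j (φ 0))) (𝓝 (j (φ 0))) :=
    continuous_smul.tendsto' _ _ (one_smul _ _)
  obtain ⟨A, h17, O₀, h18, h19⟩ := mem_nhds_prod_iff.1 ((gc.eqv.and hw.inv).and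
    ((h16.eventually (h2.and (hι.continuous.continuousAt.eventually_mem h13))).and
      (continuousAt_fst.eventually gc.eu)))
  replace h19 : ∀ r ∈ A, ∀ x ∈ O₀, (τ (r • x) = r * τ x ∧ w (r • x) = w x) ∧
      ((u (τ (r • x)), w (r • x)) = W (ι (r • x)) ∧ ι (r • x) ∈ R) ∧ e (u r) = r :=
    fun r hr x hx => h19 (mk_mem_prod hr hx)
  obtain ⟨Γ, S, _, _, _, a, f, c, O, U, h0, a', k, k1, k2, k3, k4, k5, k6, k7, k8, k9, k10, k11,
    k12, k13, k14⟩ := exists_chart hT hπC hι.continuous ha hj je hi hπ hφ gc hw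
      (inter_mem h18 (gc.cont.and (hw.hol.eventually hι.continuous.continuousAt)))
  have : T2Space S := k2.t2Space
  have : Nonempty S := ⟨k ⟨0, h0⟩⟩
  have k15 : ∀ x, f x ∈ O ∧ τ (f x) = 1 := fun x => (k5 _).1 ⟨x, rfl⟩
  rw [← k7]
  refine core h β (k1.isUC hπ) k6 k8 k9 k11 k12 k13 k14 (fun D hD D' hD' => ?_) b1 b2 b3
  have k16 : ∀ᶠ x in 𝓝 (j (φ 0)), (u (τ x), w x) = W (ι x) ∧ e (u (τ x)) = τ x ∧
      (τ x)⁻¹ • x ∈ range f := by
    filter_upwards [h2, gc.tendsto.eventually gc.eu, gc.tau_ret,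
      gc.tendsto_ret.eventually (k3.mem_nhds (k10 ▸ (k15 _).1))] with x e1 e2 e3 e4
    exact ⟨e1, e2, (k5 _).2 ⟨e4, e3⟩⟩
  rw [k2.nhds_eq_comap, k10, mem_comap] at hD
  obtain ⟨D₀, hD, hD₀⟩ := hD
  have k17 := gc.tendsto_ret.eventually_mem hD
  rw [hι.nhds_eq_comap, eventually_comap] at k16 k17
  have k18 := prod_mem_nhds (inter_mem h13 k16) h14
  obtain ⟨⟨a₁, v⟩, k19⟩ := exists_disc h8 h9 (((h11 _ (continuousAt_fst.eventually k17)).and
    (h12 _ k18 fun b hb => (h15 ⟨hb.1.1, hb.2⟩).1)).and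
      ((((gc.ce.comp (continuous_fst.tendsto' _ _ rfl)).comp
        (continuous_fst.tendsto' _ _ rfl)).eventually_mem h17).and
      ((((continuous_fst.comp continuous_fst).tendsto' _ _ rfl).eventually gc.ue).and
        ((((continuous_snd.comp continuous_fst).tendsto' _ _ rfl).eventually_mem hD').and
          (continuousAt_snd.eventually_mem h14)))))
  have := h.ne
  obtain ⟨_, ⟨-, -, -, k20, -⟩, -⟩ := k19.exists
  refine ⟨v, k20, Eventually.frequently ?_⟩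
  filter_upwards [hg, hε.eventually k19, hε.eventually self_mem_nhdsWithin]
    with p e1 ⟨⟨⟨e2, e3⟩, e4, e5, _, e6⟩, e7⟩ e8
  replace e4 : e a₁ ∈ A := e4
  replace e5 : u (e a₁) = a₁ := e5
  have e9 : ∀ x, (ι (e a₁ • f x), ε p) ∈ (R ∩ {y | ∀ x, ι x = y → (u (τ x), w x) = W (ι x) ∧
      e (u (τ x)) = τ x ∧ (τ x)⁻¹ • x ∈ range f}) ×ˢ R' ∧
      (W (ι (e a₁ • f x)), ε p) = ((a₁, w (f x)), ε p) ∧
      (f x ∈ range (g p) → (ι (e a₁ • f x), ε p) ∈ B) := fun x => by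
    obtain ⟨⟨d1, d2⟩, ⟨d3, d4⟩, d5⟩ := h19 _ e4 _ (k4 (k15 x).1).1
    rw [(k15 x).2, mul_one] at d1
    refine ⟨⟨⟨d4, fun y hy => ?_⟩, e6⟩, ?_, ?_⟩
    · rw [hι.injective hy]
      exact ⟨d3, d1.symm ▸ d5, x, by rw [d1, inv_smul_smul]⟩
    · rw [← d3, d1, d2, e5]
    · rintro ⟨m, hm⟩
      exact ((h15 (mk_mem_prod d4 e6)).2.2 p rfl e8).2 ⟨e a₁ • m, by rw [e1.eqv, hm]⟩
  refine cnt hπ hι ha hM hπM hβ e1 k1 k2 k3 k5 (fun x hx => (k4 hx).2) h17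
    (fun r hr x hx => (h19 r hr x (k4 hx).1).1) e9 (fun b d1 d2 d3 => ?_) (e3 e7)
    fun x d1 d2 => hD₀ ?_
  · have d4 : b.2 = ε p := congrArg Prod.snd d3
    obtain ⟨m, d5⟩ := ((h15 ⟨d1.1.1, d1.2⟩).2.2 p d4 e8).1 d2
    obtain ⟨d6, d7, x, d8⟩ := d1.1.2 _ d5
    have d9 : τ (g p m) = e a₁ := by
      rw [← d7]
      exact congrArg (fun y => e y.1) (d6.trans (d5 ▸ congrArg Prod.fst d3))
    exact ⟨x, ⟨_, (e1.eqv _ _).trans d8.symm⟩, Prod.ext (by rw [d8, d9, smul_inv_smul, d5]) d4⟩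
  · obtain ⟨d3, d4, d5⟩ := e9 x
    have := e2 _ (h15 ⟨d3.1.1, d3.2⟩).1 (d5 d1) (d2 ▸ d4) _ rfl
    rwa [(h19 _ e4 _ (k4 (k15 x).1).1).1.1, (k15 x).2, mul_one, inv_smul_smul] at this

end Vale.Agent.P269L.V
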