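import Vale.Agent.P269L.V.Gc

/-!
# Compatible uniformizing charts of a space and an invariant subspace
-/

namespace Vale.Agent.P269L.V

open Set Function Topology Filter P291Z P269 P269.Orb P269.Holo MulAction

variable {G T C X Z V L : Type} [Group G] [TopologicalSpace G] [TopologicalSpace T]
  [TopologicalSpace C] [TopologicalSpace X] [TopologicalSpace Z] [MulAction G T] [MulAction G C]
  [NormedAddCommGroup V] [NormedSpace ℂ V] [NormedAddCommGroup L] [NormedSpace ℂ L] {n : ℕ}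
  {ι : T → V} {u : G → L} {e : L → G} {τ : T → G} {j : C → T} {φ : (Fin n → ℂ) → C}
  {w : T → Fin n → ℂ}

/-- the coordinates on the ambient space and the parametrization of the subspace -/
theorem coords [IsTopologicalGroup G] [ContinuousSMul G T] (hι : IsInducing ι)
    (hj : Continuous j) (je : ∀ (k : G) c, j (k • c) = k • j c)
    (hφ : IsSlice G (fun c => ι (j c)) φ) (h : GC ι u e τ (j (φ 0))) (hw : Co ι τ j φ w)
    {B : Set (V × ℂ)}
    (hB : ∀ᶠ b in 𝓝 (ι (j (φ 0)), (0 : ℂ)), b.2 = 0 → (b ∈ B ↔ ∃ c, ι (j c) = b.1)) :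
    ∃ (W : V → L × (Fin n → ℂ)) (s : L × (Fin n → ℂ) → V × ℂ), AnalyticAt ℂ W (ι (j (φ 0))) ∧
      (∀ᶠ x in 𝓝 (j (φ 0)), (u (τ x), w x) = W (ι x)) ∧ W (ι (j (φ 0))) = (u 1, 0) ∧
      AnalyticAt ℂ s (u 1, 0) ∧ s (u 1, 0) = (ι (j (φ 0)), 0) ∧
      (∀ᶠ y in 𝓝 (u 1, 0), s y ∈ B ∧ (s y).2 = 0 ∧ W (s y).1 = y) ∧
      ∀ᶠ z in 𝓝 (ι (j (φ 0)), (0 : ℂ)), z ∈ B → z.2 = 0 → z = s (W z.1) := by
  obtain ⟨W, h1, h2⟩ := h.holu.prod hw.hol
  replace h2 : ∀ᶠ x in 𝓝 (j (φ 0)), (u (τ x), w x) = W (ι x) := h2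
  have h3 : ContinuousAt (fun z => j (φ z)) 0 := hj.continuousAt.comp hφ.cont
  have h4 : ContinuousAt (fun z => (τ (j (φ z)))⁻¹ • j (φ z)) 0 :=
    ContinuousAt.comp (g := fun x => (τ x)⁻¹ • x) h.ret_cont.self_of_nhds h3
  have h5 : Tendsto (fun y : L × (Fin n → ℂ) => j (φ y.2)) (𝓝 (u 1, 0)) (𝓝 (j (φ 0))) :=
    h3.tendsto.comp (continuous_snd.tendsto (u 1, 0))
  have h6 : Tendsto (fun y : L × (Fin n → ℂ) => (e y.1, (τ (j (φ y.2)))⁻¹ • j (φ y.2)))
      (𝓝 (u 1, 0)) (𝓝 (1, j (φ 0))) :=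
    (h.ce.comp (continuous_fst.tendsto (u 1, 0))).prodMk_nhds (h.tendsto_ret.comp h5)
  have h7 : Tendsto (fun y : L × (Fin n → ℂ) => e y.1 • (τ (j (φ y.2)))⁻¹ • j (φ y.2))
      (𝓝 (u 1, 0)) (𝓝 (j (φ 0))) := one_smul G (j (φ 0)) ▸ h6.fst_nhds.smul h6.snd_nhds
  have h8 : AnalyticAt ℂ (fun y : L × (Fin n → ℂ) => ι (e y.1 • (τ (j (φ y.2)))⁻¹ • j (φ y.2)))
      (u 1, 0) :=
    HolAt.an_comp (u := fun y : L × (Fin n → ℂ) => (y.1, (τ (j (φ y.2)))⁻¹ • j (φ y.2)))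
      (x := (u 1, 0)) (by simpa only [h.ret_self] using h.act)
      (continuousAt_fst.prodMk (ContinuousAt.comp (f := Prod.snd) (x := (u 1, 0)) h4
        continuousAt_snd))
      (analyticAt_fst.prod (AnalyticAt.comp (f := Prod.snd) (x := (u 1, 0))
        (h.hol.an_comp (u := fun z => j (φ z)) h3 hφ.2.1) analyticAt_snd))
  refine ⟨W, fun y => (ι (e y.1 • (τ (j (φ y.2)))⁻¹ • j (φ y.2)), 0), h1, h2, ?_,
    h8.prod analyticAt_const, ?_, ?_, ?_⟩
  · rw [← h2.self_of_nhds, h.one, hw.left.self_of_nhds]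
  · simp only [h.eu.self_of_nhds, h.ret_self, one_smul]
  · filter_upwards [((hι.continuous.continuousAt.tendsto.comp h7).prodMk_nhds
      tendsto_const_nhds).eventually hB, h7.eventually h2, h6.eventually h.eqv,
      h6.eventually hw.inv, h5.eventually h.tau_ret, continuousAt_fst.eventually h.ue,
      ((inv_one (G := G) ▸ (h.tendsto.comp h5).inv).prodMk_nhds h5).eventually hw.inv,
      continuousAt_snd.eventually hw.left] with y e1 e2 e3 e4 e5 e6 e7 e8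
    refine ⟨(e1 rfl).2 ⟨e y.1 • (τ (j (φ y.2)))⁻¹ • φ y.2, by rw [je, je]; rfl⟩, rfl, ?_⟩
    rw [← e2, e3, e4, e5, mul_one, e6]
    exact Prod.ext rfl (e7.trans e8)
  · have h9 := h2.and (hw.right.and (h.tendsto.eventually h.eu))
    rw [hι.nhds_eq_comap, eventually_comap] at h9
    filter_upwards [hB, continuousAt_fst.eventually h9] with z e1 e2 e3 e4
    obtain ⟨c, e5⟩ := (e1 e4).1 e3
    obtain ⟨e6, e7, e8⟩ := e2 _ e5
    refine Prod.ext ?_ e4
    rw [← e5, ← e6]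
    simp only [e7 ⟨c, rfl⟩, e8, smul_inv_smul]

/-- arbitrarily small compatible charts -/
theorem exists_chart (hT : Orb G T) {π : T → X} {πC : C → Z} (hπC : IsQuo G πC)
    (hι : Continuous ι) (ha : ∀ (k : G) t, HolAt ι (fun s => ι (k • s)) t) (hj : IsEmbedding j)
    (je : ∀ (k : G) c, j (k • c) = k • j c) {i : Z → X} (hi : ∀ c, i (πC c) = π (j c))
    (hπ : IsQuo G π) (hφ : IsSlice G (fun c => ι (j c)) φ) (h : GC ι u e τ (j (φ 0)))
    (hw : Co ι τ j φ w) [CompleteSpace V] {O : Set T} (hO : O ∈ 𝓝 (j (φ 0))) :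
    ∃ (Γ S : Type) (_ : Group Γ) (_ : Fintype Γ) (_ : TopologicalSpace S) (a : Γ → S → S)
      (f : S → T) (c : Γ → S → G) (O' : Set T) (U : Set (Fin n → ℂ)) (h0 : 0 ∈ U) (a' : Γ → U → U)
      (k : U → S), IsTS a f c ∧ IsEmbedding f ∧ IsOpen O' ∧ O' ⊆ O ∧
      (∀ x, x ∈ range f ↔ x ∈ O' ∧ τ x = 1) ∧ Continuous (fun x => w (f x)) ∧
      Fintype.card Γ = stab G (φ 0) ∧ CUC h0 a' (πC ∘ φ) ∧ Continuous k ∧
      f (k ⟨0, h0⟩) = j (φ 0) ∧ (∀ z, π (f (k z)) = i (πC (φ z))) ∧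
      (∀ g z, a g (k z) = k (a' g z)) ∧ (∀ z, w (f (k z)) = z) ∧
      ∀ x z, π (f x) = i z → x ∈ range k := by
  have := hT.grp
  have := hT.proper
  have := hT.contSMul
  have : ContinuousSMul G C := continuousSMul_of_isEmbedding hj je
  have h1 : ∀ᶠ z in 𝓝 0, ContinuousAt φ z := hφ.eventually.mono fun z hz => by
    have := ContinuousAt.comp_of_eq (f := fun y => y - z) (x := z) hz.cont (by fun_prop)
      (sub_self z)
    simpa only [comp_def, sub_add_cancel] using this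
  have h2 : Tendsto (fun z => j (φ z)) (𝓝 0) (𝓝 (j (φ 0))) :=
    hj.continuous.continuousAt.tendsto.comp hφ.cont
  obtain ⟨U₀, h3, h4, h5⟩ := eventually_nhds_iff.1 (h1.and ((h2.eventually (h.cont.and
    h.tau_ret)).and (hw.left.and
      (((inv_one (G := G) ▸ (h.tendsto.comp h2).inv).prodMk_nhds h2).eventually hw.inv))))
  have h6 : ∀ᶠ x in 𝓝 (j (φ 0)), w x ∈ U₀ :=
    (hw.hol.cont hι.continuousAt).eventually_mem (hw.left.self_of_nhds.symm ▸ h4.mem_nhds h5)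
  obtain ⟨O₁, h7, h8, h9⟩ := eventually_nhds_iff.1 (Eventually.and hO (h6.and (hw.right.and
    ((hw.hol.eventually hι.continuousAt).mono fun x hx => hx.cont hι.continuousAt))))
  obtain ⟨hfin, S, a, c, k1, k2, k3, k4⟩ := exists_ts h.lh
    (continuous_subtype_val.continuousAt (h8.mem_nhds h9))
  obtain ⟨O₂, k5, k6⟩ := isOpen_induced_iff.1 k1
  have c1 : ∀ z ∈ U₀, ContinuousAt (fun z => τ (j (φ z))) z := fun z hz =>
    ContinuousAt.comp (g := τ) (h3 z hz).2.1.1 (hj.continuous.continuousAt.comp (h3 z hz).1)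
  have c2 : ∀ z ∈ U₀, ContinuousAt (fun z => (τ (j (φ z)))⁻¹ • φ z) z := fun z hz =>
    (c1 z hz).inv.smul (h3 z hz).1
  let U : Set (Fin n → ℂ) := {z | z ∈ U₀ ∧ j ((τ (j (φ z)))⁻¹ • φ z) ∈ O₂}
  have hU : IsOpen U := isOpen_iff_mem_nhds.2 fun z hz => Eventually.and (h4.mem_nhds hz.1)
    ((hj.continuous.continuousAt.comp (c2 z hz.1)).eventually_mem (k5.mem_nhds hz.2))
  have h0 : 0 ∈ U := ⟨h5, by rw [je, h.ret_self]; exact k6.ge k2⟩
  let k : U → S := fun z => ⟨⟨j ((τ (j (φ z)))⁻¹ • φ z), by rw [je]; exact (h3 _ z.2.1).2.1.2⟩,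
    k6.le z.2.2⟩
  have c3 : Continuous fun z : U => (τ (j (φ z)))⁻¹ • φ z := continuous_iff_continuousAt.2
    fun z => (c2 z z.2.1).comp continuous_subtype_val.continuousAt
  have c4 : Continuous k := ((hj.continuous.comp c3).subtype_mk _).subtype_mk _
  have c5 : Continuous fun x : S => w x.1.1 := continuous_iff_continuousAt.2 fun x =>
    ContinuousAt.comp (g := w) (h7 _ (k3 x.2)).2.2.2
      (continuous_subtype_val.comp continuous_subtype_val).continuousAt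
  have e1 : ∀ z : U, w (k z).1.1 = z := fun z => by
    have := (h3 _ z.2.1).2.2
    exact (congrArg w (je _ _)).trans (this.2.trans this.1)
  have e2 : ∀ (x : S) t, x.1.1 = j t → ∃ z, k z = x ∧ (τ (j (φ z)))⁻¹ • φ z = t := fun x t e => by
    have e3 := (h7 _ (k3 x.2)).2.2.1 ⟨t, e.symm⟩
    rw [x.1.2, inv_one, one_smul, ← je] at e3
    exact ⟨⟨w x.1.1, (h7 _ (k3 x.2)).2.1, by rw [e3]; exact k6.ge x.2⟩,
      Subtype.ext (Subtype.ext e3), hj.injective (e3.trans e)⟩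
  obtain ⟨a', k7, k8⟩ := k4.pullback hj.continuous je (k := k)
    (φ' := fun z : U => (τ (j (φ z)))⁻¹ • φ z) (IsEmbedding.of_comp (c4.prodMk c3)
      (c5.comp continuous_fst) ((funext e1 : (fun z => w (k z).1.1) = _).symm ▸
        IsEmbedding.subtypeVal : IsEmbedding fun z => w (k z).1.1))
    (fun _ => rfl) e2
  have : Fintype (stabilizer G (j (φ 0))) := Fintype.ofFinite _
  have e3 : (τ (j (φ 0)))⁻¹ • φ 0 = φ 0 := by rw [h.one, inv_one, one_smul]
  have e4 : Nat.card (stabilizer G (j (φ 0))) = stab G (φ 0) :=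
    congrArg (fun H : Subgroup G => Nat.card H) (Subgroup.ext fun g => by
      rw [mem_stabilizer_iff, mem_stabilizer_iff, ← je, hj.injective.eq_iff])
  have e5 : ∀ g, a' g ⟨0, h0⟩ = ⟨0, h0⟩ := fun g => by
    obtain ⟨g', rfl⟩ := (Subtype.val_injective.bijective_of_nat_card_le
      (e4.trans ((k7.card_stab ⟨0, h0⟩).trans (by rw [e3]; rfl)).symm).le).2 g
    exact g'.2
  have e6 : ∀ (g : G) t, HolAt (fun c => ι (j c)) (fun s => ι (j (g • s))) t := fun g t =>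
    (HolAt.comp (ha g (j t)) hj.continuous.continuousAt HolAt.self).congr
      (.of_forall fun s => congrArg ι (je g s).symm)
  refine ⟨_, S, inferInstance, this, inferInstance, a, fun x => x.1.1, c, O₁ ∩ O₂, U, h0, a', k, k4,
    IsEmbedding.subtypeVal.comp IsEmbedding.subtypeVal, h8.inter k5, fun x hx => (h7 x hx.1).1,
    fun x => ⟨?_, fun hx => ⟨⟨⟨x, hx.2⟩, k6.le hx.1.2⟩, rfl⟩⟩, c5,
    Nat.card_eq_fintype_card.symm.trans e4, ⟨hU, (k7.isUC hπC).of_comp IsEmbedding.id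
      fun z => (hπC.smul _ _).symm, fun g => ?_⟩, c4, congrArg j e3,
    fun z => (hi _).symm.trans (congrArg i (hπC.smul _ _)), fun g z => (k8 g z).symm, e1,
    fun x z e => ?_⟩
  · rintro ⟨x, rfl⟩
    exact ⟨⟨k3 x.2, k6.ge x.2⟩, x.1.2⟩
  · obtain ⟨θ, k9, -, k10⟩ := hφ.exists_trans hφ (g := c g (k ⟨0, h0⟩)) (by
      have := k7.equiv g ⟨0, h0⟩
      rw [e5] at this
      simpa only [e3] using this.symm) (e6 _ _) (e6 _ _)
    have c6 : Continuous fun z : U => τ (j (φ z)) := continuous_iff_continuousAt.2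
      fun z => (c1 z z.2.1).comp continuous_subtype_val.continuousAt
    have k11 : Tendsto (fun z : U => (c g (k ⟨0, h0⟩) * τ (j (φ z)) * (c g (k z))⁻¹ *
        (τ (j (φ (a' g z))))⁻¹, (a' g z).1)) (𝓝 ⟨0, h0⟩) (𝓝 (1, 0)) :=
      ((((continuous_const.mul c6).mul (k7.cont_c g).inv).mul (c6.comp (k7.cont_a g)).inv).prodMk
        (continuous_subtype_val.comp (k7.cont_a g))).tendsto' _ _ (by simp [e5, h.one])
    exact ⟨θ, k9, (k11.eventually k10).mono fun z hz => (hz z (by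
      rw [mul_smul, k7.equiv, mul_smul, inv_smul_smul, mul_smul, smul_inv_smul])).symm⟩
  · obtain ⟨t, rfl⟩ := hπC.surj z
    obtain ⟨g, hg⟩ := (hπ.eq_iff _ _).1 (e.trans (hi t)).symm
    exact (e2 x (g • t) (by rw [je, hg])).imp fun _ h => h.1

end Vale.Agent.P269L.V
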