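import Vale.Agent.P269L.Lim.Sp
import Vale.Agent.P269.Orb.Brg

/-!
# The local value of a limit class: the count in a uniformizing chart
-/

namespace Vale.Agent.P269L.V

open Set Function Topology Filter P291Z P269.Orb unitInterval

variable {n : ℕ} {X Y Z S P Γ : Type} [TopologicalSpace X] [TopologicalSpace Y]
  [TopologicalSpace Z] [TopologicalSpace S] [TopologicalSpace P] [Group Γ] [Fintype Γ]

section chart

variable {U : Set (Fin n → ℂ)}

theorem zc_shift (v : U) : pull (fun u : U => u.1 - v.1) (tau n) ∈ Zc U :=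
  Zc_of_pt (x := v) (cocycle_pull (by fun_prop) (tau_cocycle n)) fun u hu =>
    Subtype.ext (sub_eq_zero.1 (supp_tau n (supp_pull (f := fun u : U => u.1 - v.1)
      (by fun_prop) _ hu)))

theorem zc_val (h0 : 0 ∈ U) : pull (Subtype.val : U → _) (tau n) ∈ Zc U := by
  simpa only [sub_zero] using zc_shift ⟨0, h0⟩

theorem cls_pt (hU : IsOpen U) (h0 : 0 ∈ U) {e : Coch U} (hs : supp e ⊆ {⟨0, h0⟩})
    {e' : Coch (Fin n → ℂ)} (he : pull Subtype.val e' - e ∈ Van (⟨0, h0⟩ : U)) {c : ℂ}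
    (hc : LocCo e' c) : cls e = c • cls (pull (Subtype.val : U → _) (tau n)) := by
  have : Nonempty U := ⟨⟨0, h0⟩⟩
  have hj := hU.isOpenEmbedding_subtypeVal
  obtain ⟨b, rfl⟩ := exists_pull_eq hj.injective e
  rw [← map_sub] at he
  have h1 : LocCo b c := hc.congr (by rw [← neg_sub]; exact neg_mem (van_of_pull hj he))
  rw [cls_eq_of_cohom ((isCompact_singleton (x := (⟨0, h0⟩ : U))).of_isClosed_subset
    (isClosed_eq continuous_subtype_val continuous_const) fun z hz => Subtype.ext hz)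
    (h1.cohom_open fun z h2 h3 => van_of_pull hj (x := ⟨z, h2⟩) fun h' =>
      h3 (congrArg Subtype.val (hs h'))), map_smul, cls_smul c (zc_val h0)]

theorem cls_shift (hU : IsOpen U) {v : Fin n → ℂ} (hv : ∀ r : I, (r : ℝ) • v ∈ U) :
    cls (pull (fun u : U => u.1 - v) (tau n)) = cls (pull (Subtype.val : U → _) (tau n)) := by
  have := hU.locallyCompactSpace
  have hc : Continuous fun w : I × U => w.2.1 - (w.1 : ℝ) • v := by fun_prop
  have hc' : Continuous fun r : I => (r, (⟨(r : ℝ) • v, hv r⟩ : U)) := by fun_prop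
  exact (cls_pull_eq_of_homotopy hc (tau_cocycle n) ((isCompact_range hc').of_isClosed_subset
    ((isClosed_supp _).preimage hc) fun w hw => ⟨w.1, Prod.ext rfl
      (Subtype.ext (sub_eq_zero.1 (supp_tau n hw)).symm)⟩) (fun z => by simp)
    fun z => by simp).symm

/-- moving the point in a uniformizing chart -/
theorem cls_move [Nice Z] {h0 : 0 ∈ U} {a : Γ → U → U} {φ : (Fin n → ℂ) → Z} (h : CUC h0 a φ)
    {v : Fin n → ℂ} (hv : ∀ r : I, (r : ℝ) • v ∈ U) {e : Coch Z} (he : e ∈ Zc Z)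
    (hs : supp e ⊆ range fun u : U => φ u) (hc : cls (pull (fun u : U => φ u) e) =
      cls (avg a (pull (fun u : U => u.1 - v) (tau n)))) {b : Coch Z} {c : ℂ}
    (h1 : supp (δ b) = ∅) (h2 : supp b ⊆ {φ 0}) (h3 : LocCo (pull φ b) c) :
    cls b = c • cls e := by
  have := h.isOpen.locallyCompactSpace
  have hv1 : v ∈ U := by simpa using hv 1
  have h4 : ∀ g, cls (pull (a g) (pull (fun u : U => u.1 - v) (tau n))) =
      cls (pull (Subtype.val : U → _) (tau n)) := fun g => by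
    have hp := IsPr.of_isHomeomorph (h.uc.isHomeomorph g)
    obtain ⟨θ, k1, k2⟩ := h.pos g
    rw [← Hc.pull_cls hp (zc_shift ⟨v, hv1⟩), cls_shift h.isOpen hv, Hc.pull_cls hp (zc_val h0),
      cls_pt h.isOpen h0 (fun u hu => ?_) ?_ k1.co, one_smul]
    · rw [pull_pull, pull_pull]
      exact van_pull_congr (k2.mono fun _ e => e.symm) _
    · refine h.uc.injective g ?_
      rw [h.fix]
      exact Subtype.ext (supp_tau n (supp_pull continuous_subtype_val _ (supp_pull hp.cont _ hu)))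
  have hb := Zc_of_pt h1 h2
  have hbs : supp b ⊆ range fun u : U => φ u := h2.trans (singleton_subset_iff.2 ⟨⟨0, h0⟩, rfl⟩)
  rw [h.uc.cls_avg (zc_shift ⟨v, hv1⟩), Finset.sum_congr rfl fun g _ => h4 g, Finset.sum_const,
    Finset.card_univ, ← Nat.cast_smul_eq_nsmul ℂ, smul_smul,
    inv_mul_cancel₀ (Nat.cast_ne_zero.2 Fintype.card_ne_zero), one_smul] at hc
  rw [← cls_smul c he, cls_eq_iff hb (Submodule.smul_mem _ c he)]
  refine h.uc.mem_Bc (sub_mem hb (Submodule.smul_mem _ c he)) ((supp_sub _ _).trans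
    (union_subset hbs ((supp_smul _ _).trans hs))) ?_
  rw [map_sub, map_smul, ← cls_eq_iff (h.uc.pull_Zc hb hbs)
    (Submodule.smul_mem _ c (h.uc.pull_Zc he hs)), cls_smul c (h.uc.pull_Zc he hs), hc]
  exact cls_pt h.isOpen h0 (fun u hu => h.fib (h2 (supp_pull h.uc.cont b hu)))
    (by rw [pull_pull]; exact (sub_self (pull (fun u : U => φ u) b)).symm ▸ zero_mem _) h3

end chart

/-- descent of a cocycle with closed support, cut off outside a compact set -/
theorem descend [T2Space S] [Nice X] [Nonempty S] {a : Γ → S → S} {q : S → X} (h : IsUC a q)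
    {k : ℤ} {t : Coch S} (h1 : IsDeg k t) (h2 : supp (δ t) = ∅) {D : Set S} (hD : IsClosed D)
    (h3 : supp t ⊆ D) {K : Set X} (hK : IsCompact K) (hKq : K ⊆ range q) :
    ∃ (b : Coch X) (e : Coch S), IsCompact (supp b) ∧ supp b ⊆ q '' D ∧
      supp e ⊆ q ⁻¹' (q '' D) ∧ ∀ x, (q x ∈ K ∨ q x ∉ q '' D) →
        δ b ∈ Van (q x) ∧ avg a t - pull q b - δ e ∈ Van x := by
  have hj := h.isOpen_range.isOpenEmbedding_subtypeVal
  have : Nice (range q) := Nice.of_isLocallyClosed h.isOpen_range.isLocallyClosed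
  have : Nonempty (range q) := (range_nonempty q).to_subtype
  have h' : IsUC a (rangeFactorization q) := h.of_comp hj.isEmbedding fun _ => rfl
  have hA : IsClosed (rangeFactorization q '' D) := by
    rw [← (IsOpenQuotientMap.mk rangeFactorization_surjective h'.cont
      h'.isOpen).isQuotientMap.isClosed_preimage, h'.preimage_image]
    exact isClosed_iUnion_of_finite fun g => (h.homeo g).isClosedMap _ hD
  obtain ⟨f, -, h4, h5, e, h6, h7⟩ := h'.surj hA (image_subset_range _ _) h1 h2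
    (h3.trans (subset_preimage_image _ _))
  obtain ⟨f, rfl⟩ := exists_pull_eq hj.injective f
  obtain ⟨N, h8, h9, h10⟩ := exists_cut_compact hK h.isOpen_range hKq f
  have h11 : ∀ x, q x ∉ q '' D → f ∈ Van (q x) := fun x hx =>
    van_of_pull hj (x := rangeFactorization q x) fun h' =>
      let ⟨y, k1, k2⟩ := h5 h'; hx ⟨y, k1, congrArg Subtype.val k2⟩
  refine ⟨cut N f, e, h8, fun y hy => ?_, fun x hx => ?_, fun x hx => ?_⟩
  · obtain ⟨⟨x, rfl⟩, k1⟩ := h9 hy
    exact by_contra fun k2 => h11 x k2 k1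
  · obtain ⟨y, k1, k2⟩ := h6 hx
    exact ⟨y, k1, congrArg Subtype.val k2⟩
  · have k1 := h10 _ (hx.imp_right (h11 x))
    have k2 : δ f ∈ Van (q x) := van_of_pull hj (x := rangeFactorization q x) (by
      rw [← δ_pull]; exact supp_eq_empty.1 h4 _)
    have k3 := sub_mem k2 (Van.δ k1)
    rw [map_sub, sub_sub_cancel] at k3
    have k4 := add_mem (supp_eq_empty.1 h7 x) (Van.pull h.cont.continuousAt k1)
    rw [pull_pull, map_sub] at k4
    refine ⟨k3, ?_⟩
    rw [show avg a t - pull q (cut N f) - δ e =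
      avg a t - pull q f - δ e + (pull q f - pull q (cut N f)) by abel]
    exact k4

/-- The points of the chart `S` over the image of `γ` at which `w` takes the value `v`: there are
`N` of them, all in `V`, and they are simple. -/
def Cnt (a : Γ → S → S) (q : S → X) (w : S → Fin n → ℂ) (γ : Y → X) (β : BM Y) (v : Fin n → ℂ)
    (V : Set S) (N : ℕ) : Prop :=
  ∃ F : Finset (S × Y), F.card = N ∧ (∀ p, p ∈ F ↔ w p.1 = v ∧ q p.1 = γ p.2) ∧ ∀ p ∈ F, p.1 ∈ V ∧
    ∃ (ψ : (Fin n → ℂ) → Y) (η : (Fin n → ℂ) → S), ψ 0 = p.2 ∧ η 0 = p.1 ∧ ContinuousAt ψ 0 ∧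
      (∀ᶠ z in 𝓝 0, ContinuousAt η z ∧ q (η z) = γ (ψ z)) ∧
      Val β ψ (Nat.card {g // a g p.1 = p.1}) ∧
      ∀ g, w (a g p.1) = v → PosGerm fun z => w (a g (η z)) - v

theorem card_fib {a : Γ → S → S} {q : S → X} (h : IsUC a q) {x x' : S} (e : q x = q x')
    [DecidablePred fun g => a g x = x'] :
    (Finset.univ.filter fun g => a g x = x').card = Nat.card {g // a g x = x} := by
  obtain ⟨k, rfl⟩ := (h.fib _ _).1 e
  rw [← Fintype.card_subtype, ← Nat.card_eq_fintype_card]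
  exact Nat.card_congr ((Equiv.mulLeft k⁻¹).subtypeEquiv fun g => by
    rw [Equiv.coe_mulLeft, h.mul]
    exact ⟨fun e => by rw [e, h.inv_a], fun e => by rw [← h.a_inv k (a g x), e]⟩)

omit [Group Γ] [Fintype Γ] in
theorem locCo_sum_one {s : Finset Γ} {c : Γ → Coch (Fin n → ℂ)} {p : Γ → Prop} [DecidablePred p]
    (h1 : ∀ g, p g → LocCo (c g) 1) (h2 : ∀ g, ¬p g → c g ∈ Van 0) :
    LocCo (∑ g ∈ s, c g) (s.filter p).card := by
  classical
  induction s using Finset.induction_on with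
  | empty => simpa using locCo_smul_tau (n := n) 0
  | insert g s hs ih =>
    rw [Finset.sum_insert hs, Finset.filter_insert]
    split_ifs with hp
    · rw [Finset.card_insert_of_notMem fun h => hs (Finset.mem_filter.1 h).1, Nat.cast_succ,
        add_comm _ (1 : ℂ)]
      exact (h1 g hp).add ih
    · simpa only [zero_add] using (locCo_zero_of_van (h2 g hp)).add ih

theorem ev_cnt [Nice Y] {a : Γ → S → S} {q : S → X} (h : IsUC a q) {w : S → Fin n → ℂ}
    (hw : Continuous w) {γ : Y → X} (hγ : Continuous γ) {β : BM Y} {v : Fin n → ℂ} {V : Set S}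
    {N : ℕ} (hN : Cnt a q w γ β v V N) {b : Coch X} {e : Coch S}
    (h1 : supp (δ (pull γ b)) = ∅) (h2 : supp b ⊆ q '' {x | w x = v})
    (h3 : supp e ⊆ q ⁻¹' (q '' {x | w x = v}))
    (h4 : ∀ x ∈ V, avg a (pull (fun x => w x - v) (tau n)) - pull q b - δ e ∈ Van x) :
    ev β (pull γ b) = N / Fintype.card Γ := by
  classical
  obtain ⟨F, rfl, h5, h6⟩ := hN
  rw [ev_finite β (fun y => ((F.filter fun p => p.2 = y).card : ℂ) / Fintype.card Γ)
    (F.image Prod.snd) h1 (fun y hy => ?_) fun y hy c k1 k2 k3 => ?_, ← Finset.sum_div,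
    ← Nat.cast_sum, ← Finset.card_eq_sum_card_image]
  · obtain ⟨x, k1, k2⟩ := h2 (supp_pull hγ b hy)
    exact Finset.mem_coe.2 (Finset.mem_image_of_mem Prod.snd ((h5 (x, y)).2 ⟨k1, k2⟩))
  obtain ⟨⟨x, y⟩, hp, rfl⟩ := Finset.mem_image.1 hy
  obtain ⟨k4, ψ, η, rfl, rfl, k5, k6, k7, k8⟩ := h6 _ hp
  have k9 := k6.self_of_nhds.1
  have k10 : ∀ g, ∀ᶠ z in 𝓝 0, w (a g (η z)) = v → z = 0 := fun g => by
    by_cases e : w (a g (η 0)) = v
    · exact (k8 g e).germ.ev.mono fun z hz e' => hz.2 (sub_eq_zero.2 e')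
    · exact (((hw.comp (h.cont_a g)).continuousAt.comp k9).eventually_ne e).mono
        fun z hz e' => absurd e' hz
  have k11 : LocCo (pull η (avg a (pull (fun x => w x - v) (tau n))))
      ((Fintype.card Γ : ℂ)⁻¹ * (Finset.univ.filter fun g => w (a g (η 0)) = v).card) := by
    rw [avg_apply, map_smul, map_sum]
    refine (locCo_sum_one (fun g e => ?_) fun g e => ?_).smul _
    · rw [pull_pull, pull_pull]
      exact (k8 g e).co
    · exact Van.pull k9 (Van.pull (h.cont_a g).continuousAt (Van.pull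
        (hw.sub continuous_const).continuousAt (tau_van (sub_ne_zero.2 e))))
  have k12 : LocCo (pull η (pull q b))
      ((Fintype.card Γ : ℂ)⁻¹ * (Finset.univ.filter fun g => w (a g (η 0)) = v).card) := by
    refine k11.of_cohom (b := -pull η e) ?_
    filter_upwards [k6, k9.eventually (eventually_van (h4 _ k4)), eventually_all.2 k10]
      with z e1 e2 e3
    refine ⟨?_, fun e4 => neg_mem (Van.pull e1.1 fun e5 => ?_)⟩
    · have := neg_mem (Van.pull e1.1 e2)
      rw [map_sub, map_sub, ← δ_pull] at this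
      rw [map_neg, show ∀ A B C : Coch (Fin n → ℂ), A - B - -C = -(B - A - C) from
        fun A B C => by abel]
      exact this
    · obtain ⟨x, e6, e7⟩ := h3 e5
      obtain ⟨g, rfl⟩ := (h.fib _ _).1 e7.symm
      exact e4 (e3 g e6)
  have k13 := k7 c _ k1 k2 (LocCo.of_van k5 (b := pull γ b) (by
    rw [pull_pull] at k12 ⊢
    exact k12.pull_congr (k6.mono fun z hz => hz.2.symm)) (by rw [← neg_sub]; exact neg_mem k3))
  have k14 : (Finset.univ.filter fun g => w (a g (η 0)) = v).card =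
      Nat.card {g // a g (η 0) = η 0} * (F.filter fun p => p.2 = ψ 0).card := by
    rw [Finset.card_eq_sum_card_fiberwise (f := fun g => (a g (η 0), ψ 0))
      (t := F.filter fun p => p.2 = ψ 0) fun g hg => ?_, mul_comm, ← smul_eq_mul,
      ← Finset.sum_const]
    · refine Finset.sum_congr rfl fun p e => ?_
      obtain ⟨e1, e2⟩ := Finset.mem_filter.1 e
      obtain ⟨e3, e4⟩ := (h5 p).1 e1
      rw [← card_fib h (x' := p.1) (by rw [e4, e2]; exact k6.self_of_nhds.2)]
      congr 1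
      ext g
      simp only [Finset.mem_filter, Finset.mem_univ, true_and]
      exact ⟨fun e => congrArg Prod.fst e.2, fun e => ⟨e ▸ e3, Prod.ext e e2.symm⟩⟩
    · exact Finset.mem_coe.2 (Finset.mem_filter.2 ⟨(h5 _).2 ⟨(Finset.mem_filter.1 hg).2,
        (h.q_a g _).trans k6.self_of_nhds.2⟩, rfl⟩)
  have : Nonempty {g // a g (η 0) = η 0} := ⟨⟨1, h.one _⟩⟩
  refine mul_left_cancel₀ (Nat.cast_ne_zero.2 (Nat.card_pos (α := {g // a g (η 0) = η 0})).ne') ?_
  rw [k13, k14, Nat.cast_mul]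
  ring

/-- **The value of the limit class at the centre of a chart.** -/
theorem core [Nice X] [Nice Y] [Nice Z] [T2Space S] {l : Filter P} {γ : P → Y → X} {i : Z → X}
    (h : Dg l γ i) (β : BM Y) {a : Γ → S → S} {q : S → X} (hq : IsUC a q) {w : S → Fin n → ℂ}
    (hw : Continuous w) {U : Set (Fin n → ℂ)} {h0 : 0 ∈ U} {a' : Γ → U → U} {φ : (Fin n → ℂ) → Z}
    (hφ : CUC h0 a' φ) {j : U → S} (hj : Continuous j) (e1 : ∀ u, q (j u) = i (φ u))
    (e2 : ∀ g u, a g (j u) = j (a' g u)) (e3 : ∀ u, w (j u) = u)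
    (e4 : ∀ x z, q x = i z → x ∈ range j) {N : ℕ}
    (hN : ∀ V ∈ 𝓝 (j ⟨0, h0⟩), ∀ V' ∈ 𝓝 0, ∃ v ∈ V', ∃ᶠ s in l, Cnt a q w (γ s) β v V N)
    {b : Coch Z} {c : ℂ} (h1 : supp (δ b) = ∅) (h2 : supp b ⊆ {φ 0}) (h3 : LocCo (pull φ b) c) :
    ev (h.lm β) b = N / Fintype.card Γ * c := by
  have : Nonempty S := ⟨j ⟨0, h0⟩⟩
  obtain ⟨K, k1, k2, k3⟩ := local_compact_nhds (hq.isOpen_range.mem_nhds ⟨j ⟨0, h0⟩, rfl⟩)
  obtain ⟨r, hr, k4⟩ := Metric.nhds_basis_ball.mem_iff.1 (inter_mem (hφ.isOpen.mem_nhds h0)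
    ((h.emb.continuous.continuousAt.comp (hφ.contAt h0)).preimage_mem_nhds
      (show K ∈ 𝓝 (i (φ 0)) from e1 ⟨0, h0⟩ ▸ k1)))
  obtain ⟨v, k5, k6⟩ := hN _ (hq.cont.continuousAt.preimage_mem_nhds k1) _ (Metric.ball_mem_nhds 0 hr)
  have hc : Continuous fun x => w x - v := hw.sub continuous_const
  obtain ⟨f, e, k7, k8, k9, k10⟩ := descend hq ((tau_deg n).pull fun x => w x - v)
    (cocycle_pull hc (tau_cocycle n)) (isClosed_eq hw continuous_const)
    (fun x hx => sub_eq_zero.1 (supp_tau n (supp_pull hc _ hx))) k3 k2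
  have k11 : ∀ z, i z ∈ q '' {x | w x = v} → z = φ v := by
    rintro z ⟨x, e5, e6⟩
    obtain ⟨u, rfl⟩ := e4 x z e6
    rw [← h.emb.injective ((e1 u).symm.trans e6), ← e3 u, e5]
  have k12 : ∀ x z, q x = i z → q x ∈ K ∨ q x ∉ q '' {x | w x = v} := fun x z e5 =>
    or_iff_not_imp_right.2 fun e6 => by
      rw [e5] at e6 ⊢
      rw [k11 z (not_not.1 e6)]
      exact (k4 k5).2
  have hf : f ∈ Near i := ⟨k7, fun z => by
    by_cases e5 : i z ∈ range q
    · obtain ⟨x, e5⟩ := e5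
      exact e5 ▸ (k10 x (k12 x z e5)).1
    · exact Van.δ fun e6 => e5 (image_subset_range _ _ (k8 e6))⟩
  obtain ⟨s, k13, k14, k15⟩ := (k6.and_eventually ((h.ev_lm β hf).and (h.zc hf))).exists
  have hv : ∀ t : I, (t : ℝ) • v ∈ U := fun t => (k4 (by
    simpa using (convex_ball 0 r).smul_mem_of_zero_mem (Metric.mem_ball_self hr) k5 t.2)).1
  have k16 := cls_move hφ hv (Near.pull_Zc (IsPr.of_isClosedEmbedding h.emb) hf)
    (fun z hz => ⟨⟨v, (k4 k5).1⟩, (k11 z (k8 (supp_pull h.emb.continuous f hz))).symm⟩)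
    (Eq.symm (cls_eq_of_cohom (hφ.uc.finite_fib (φ v)).isCompact ⟨pull j e, fun u hu =>
      k11 _ (e1 u ▸ k9 (supp_pull hj e hu)), supp_eq_empty.2 fun u => ?_⟩)) h1 h2 h3
  · rw [ev_eq, k16, map_smul, ← ev_eq, k14, ev_cnt hq hw (h.cont' s) k13 k15.2 k8 k9
      fun x hx => (k10 x (Or.inl hx)).2, smul_eq_mul, mul_comm]
  · have := Van.pull hj.continuousAt (k10 _ (k12 _ _ (e1 u))).2
    rw [map_sub, map_sub, ← δ_pull, pull_pull, avg_apply, map_smul, map_sum] at this
    rw [pull_pull, avg_apply, show (i ∘ fun u : U => φ u) = q ∘ j from funext fun u => (e1 u).symm,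
      Finset.sum_congr rfl fun g _ => (?_ : _ = pull j (pull (a g) (pull (fun x => w x - v) (tau n))))]
    · exact this
    · rw [pull_pull, pull_pull, pull_pull]
      exact congrArg (pull · (tau n)) (funext fun u => by simp only [comp_apply, e2, e3])

end Vale.Agent.P269L.V
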