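import Vale.Agent.P269L.V.Core
import Vale.Agent.P287Q.H3.A3

/-!
# Coordinates adapted to a group action
-/

namespace Vale.Agent.P269L.V

open Set Function Topology Filter P291Z P269 P269.Orb P269.Holo MulAction

variable {G M T C V W L : Type} [Group G] [TopologicalSpace G] [TopologicalSpace M]
  [TopologicalSpace T] [TopologicalSpace C] [MulAction G M] [MulAction G T] [MulAction G C]
  [NormedAddCommGroup V] [NormedSpace ℂ V] [NormedAddCommGroup W] [NormedSpace ℂ W]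
  [NormedAddCommGroup L] [NormedSpace ℂ L] {n : ℕ}

/-- A local trivialisation `τ` of the action at `t`, holomorphic for the coordinate `u` on the
group, whose local inverse is `e`. -/
structure GC (ι : T → V) (u : G → L) (e : L → G) (τ : T → G) (t : T) : Prop where
  one : τ t = 1
  cont : ∀ᶠ s in 𝓝 t, ContinuousAt τ s
  eqv : ∀ᶠ p : G × T in 𝓝 (1, t), τ (p.1 • p.2) = p.1 * τ p.2
  hol : HolAt ι (fun s => ι ((τ s)⁻¹ • s)) t
  holu : HolAt ι (fun s => u (τ s)) t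
  eu : ∀ᶠ g in 𝓝 1, e (u g) = g
  ue : ∀ᶠ a in 𝓝 (u 1), u (e a) = a
  ce : Tendsto e (𝓝 (u 1)) (𝓝 1)
  act : HolAt (Prod.map (fun a : L => a) ι) (fun p : L × T => ι (e p.1 • p.2)) (u 1, t)

theorem gc_of_ug {A : Type} [NormedRing A] [NormedAlgebra ℂ A] [FiniteDimensional ℂ A]
    [FiniteDimensional ℂ W] {act : A → W → W} {S : Set W} [IsAct act S] {Y : Ch.Sp}
    {p : Ch.Pres Y act S} (hp : P287Q.H3.A3.UG p) (t : Y.T) : ∃ e τ, GC p.i p.u e τ t := by
  have := FiniteDimensional.complete ℂ A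
  obtain ⟨τ, h1, h2, -⟩ := hp.exists_coc_hol t
  obtain ⟨e, h3, h4⟩ := hp.exists_inv
  have h5 : ∀ᶠ a in 𝓝 (p.u 1), p.u (e a) = a := by
    rw [hp.one]
    exact mem_of_superset (Units.nhds (1 : Aˣ)) fun a ha => h3 a ha
  refine ⟨e, τ, h1.one, h1.cont, h1.eqv, h1.hol, h2,
    .of_forall fun g => hp.emb.injective (h3 _ (p.unit g)), h5, hp.one.symm ▸ h4,
    (HolAt.of_an (ι := Prod.map (fun a : A => a) p.i) (t := (p.u 1, t))
      (Φ := fun q : A × W => act q.1 q.2) (IsAct.an _ (p.unit 1) _ (p.mem t))).congr ?_⟩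
  filter_upwards [continuousAt_fst.eventually h5] with q hq
  rw [p.eqv, hq]
  rfl

theorem gc_sp {A : Type} [NormedRing A] [NormedAlgebra ℂ A] [FiniteDimensional ℂ A]
    [FiniteDimensional ℂ W] {act : A → W → W} {S : Set W} [IsAct act S]
    (ho : Orb Aˣ (Sp act S)) (t : Sp act S) :
    ∃ e τ, GC (Sp.val : Sp act S → W) (Units.val : Aˣ → A) e τ t :=
  gc_of_ug (P287Q.H3.A3.ug_presA ho) t

namespace GC

variable {ι : T → V} {u : G → L} {e : L → G} {τ : T → G} {t : T} (h : GC ι u e τ t)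
include h

theorem tendsto : Tendsto τ (𝓝 t) (𝓝 1) := h.one ▸ h.cont.self_of_nhds

theorem ret_self : (τ t)⁻¹ • t = t := by rw [h.one, inv_one, one_smul]

theorem ret_smul : ∀ᶠ p : G × T in 𝓝 (1, t), (τ (p.1 • p.2))⁻¹ • p.1 • p.2 = (τ p.2)⁻¹ • p.2 :=
  h.eqv.mono fun p hp => by rw [hp, mul_inv_rev, mul_smul, inv_smul_smul]

variable [IsTopologicalGroup G] [ContinuousSMul G T]

theorem ret_cont : ∀ᶠ s in 𝓝 t, ContinuousAt (fun x => (τ x)⁻¹ • x) s :=
  h.cont.mono fun _ hs => hs.inv.smul continuousAt_id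

theorem tendsto_ret : Tendsto (fun x => (τ x)⁻¹ • x) (𝓝 t) (𝓝 t) := by
  have := h.ret_cont.self_of_nhds
  rwa [ContinuousAt, h.ret_self] at this

omit [ContinuousSMul G T] in
theorem tau_ret : ∀ᶠ s in 𝓝 t, τ ((τ s)⁻¹ • s) = 1 :=
  (((inv_one (G := G) ▸ h.tendsto.inv).prodMk_nhds tendsto_id).eventually h.eqv).mono
    fun _ hs => hs.trans (inv_mul_cancel _)

theorem lh : LH (fun x : G × {s // τ s = 1} => x.1 • x.2.1) (1, ⟨t, h.one⟩) := by
  classical
  have h3 := h.tau_ret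
  have h4 : ∀ᶠ x : G × {s // τ s = 1} in 𝓝 (1, ⟨t, h.one⟩), τ (x.1 • x.2.1) = x.1 := by
    filter_upwards [(show ContinuousAt (fun x : G × {s // τ s = 1} => (x.1, x.2.1))
      (1, ⟨t, h.one⟩) by fun_prop).eventually h.eqv] with x hx
    rw [hx, x.2.2, mul_one]
  refine LH.of_inv (fun s => (τ s, if e : τ ((τ s)⁻¹ • s) = 1 then ⟨_, e⟩ else ⟨t, h.one⟩))
    (Eventually.of_forall fun _ => by fun_prop) ?_ ?_ ?_
  · rw [one_smul]
    filter_upwards [h.cont, h3.eventually_nhds] with s a b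
    refine a.prodMk (IsInducing.subtypeVal.continuousAt_iff.2
      ((a.inv.smul continuousAt_id).congr (b.mono fun y hy => ?_)))
    simp only [comp_apply, dif_pos hy]
    rfl
  · filter_upwards [h4] with x hx
    refine Prod.ext hx (Subtype.ext ?_)
    simp only [hx, inv_smul_smul, x.2.2, dif_pos]
  · rw [one_smul]
    filter_upwards [h3] with s hs
    simp only [dif_pos hs, smul_inv_smul]

end GC

/-- Invariant coordinates `w` on `T` near a slice `φ` of the invariant subspace `C`. -/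
structure Co (ι : T → V) (τ : T → G) (j : C → T) (φ : (Fin n → ℂ) → C) (w : T → Fin n → ℂ) :
    Prop where
  hol : HolAt ι w (j (φ 0))
  inv : ∀ᶠ p : G × T in 𝓝 (1, j (φ 0)), w (p.1 • p.2) = w p.2
  left : ∀ᶠ z in 𝓝 0, w (j (φ z)) = z
  right : ∀ᶠ x in 𝓝 (j (φ 0)), x ∈ range j → (τ (j (φ (w x))))⁻¹ • j (φ (w x)) = (τ x)⁻¹ • x

theorem exists_co [IsTopologicalGroup G] [ContinuousSMul G T] {ι : T → V} {u : G → L} {e : L → G}
    {τ : T → G} {j : C → T} (hι : Continuous ι) (hj : IsInducing j)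
    (je : ∀ (k : G) c, j (k • c) = k • j c) {φ : (Fin n → ℂ) → C}
    (hφ : IsSlice G (fun c => ι (j c)) φ) (h : GC ι u e τ (j (φ 0))) : ∃ w, Co ι τ j φ w := by
  obtain ⟨w, κ, h1, h2, h3, h4⟩ := hφ.exists_coord
  have h5 : Tendsto (fun z => j (φ z)) (𝓝 0) (𝓝 (j (φ 0))) :=
    hj.continuous.continuousAt.tendsto.comp hφ.cont
  have h6 : ∀ᶠ z in 𝓝 0, w (ι ((τ (j (φ z)))⁻¹ • j (φ z))) = z :=
    (((inv_one (G := G) ▸ (h.tendsto.comp h5).inv).prodMk_nhds tendsto_id).eventually h2).mono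
      fun z hz => by rw [← je]; exact hz
  have h7 : Tendsto (fun c => w (ι (j c))) (𝓝 (φ 0)) (𝓝 0) := by
    have := h1.continuousAt.tendsto.comp (hι.comp hj.continuous).continuousAt
    have e : w (ι (j ((1 : G) • φ 0))) = 0 := h2.self_of_nhds
    rw [one_smul] at e
    rwa [e] at this
  refine ⟨fun x => w (ι ((τ x)⁻¹ • x)), h.hol.comp_an (h.ret_self.symm ▸ h1),
    h.ret_smul.mono fun p hp => by rw [hp], h6, ?_⟩
  have : ∀ᶠ c in 𝓝 (φ 0), (τ (j (φ (w (ι ((τ (j c))⁻¹ • j c))))))⁻¹ •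
      j (φ (w (ι ((τ (j c))⁻¹ • j c)))) = (τ (j c))⁻¹ • j c := by
    filter_upwards [h4, h7.eventually h6, (h3.prodMk_nhds (h5.comp h7)).eventually h.ret_smul]
      with c e1 e2 e3
    rw [comp_apply, ← je, e1] at e3
    rw [e3, e2]
  rw [hj.nhds_eq_comap, eventually_comap] at this
  exact this.mono fun x hx ⟨c, hc⟩ => hc ▸ hx c hc

/-- a germ through a slice with a holomorphic left inverse -/
theorem pos {ι : M → W} (hM : HolOrb G ι n) {ψ : (Fin n → ℂ) → M}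
    (hψ : IsSlice G ι ψ) {k : (Fin n → ℂ) → G} (hk : ContinuousAt k 0) {F : M → V}
    (hF : HolAt F ι (k 0 • ψ 0)) {θ : (Fin n → ℂ) → Fin n → ℂ} (h0 : θ 0 = 0)
    (hθ : AnalyticAt ℂ θ 0) {R : (Fin n → ℂ) → V} (hR : AnalyticAt ℂ R 0)
    (e : ∀ᶠ z in 𝓝 0, F (k z • ψ z) = R (θ z)) : PosGerm θ := by
  have := hM.grp
  have := hM.orb.contSMul
  obtain ⟨w, -, h1, h2, -, -⟩ := hψ.exists_coord
  obtain ⟨Φ, h3, h4⟩ := ((hM.hol (k 0)⁻¹ _).trans hF).comp_an (Ψ := w) (by rwa [inv_smul_smul])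
  have h5 : Tendsto (fun z => ((k 0)⁻¹ * k z, z)) (𝓝 0) (𝓝 (1, 0)) :=
    (inv_mul_cancel (k 0) ▸ hk.tendsto.const_mul _).prodMk_nhds tendsto_id
  refine posGerm_of_left_inverse (θ' := fun y => Φ (R y)) h0 hθ
    (AnalyticAt.comp_of_eq (g := Φ) h3 hR (by rw [e.self_of_nhds, h0])).differentiableAt ?_
  filter_upwards [e, h5.eventually h2, (hk.smul hψ.cont).eventually h4] with z e1 e2 e3
  rw [← e1]
  exact e3.symm.trans ((congrArg (fun m => w (ι m)) (mul_smul _ _ _).symm).trans e2)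

/-- off a proper analytic subset there are vertical punctured discs -/
theorem exists_disc {δ : L × ℂ → ℂ} {p : L} (h : AnalyticAt ℂ δ (p, 0))
    (h0 : ¬∀ᶠ y in 𝓝 (p, 0), δ y = 0) {A : Set (L × ℂ)} (hA : A ∈ 𝓝 (p, 0)) :
    ∃ a, ∀ᶠ t in 𝓝[≠] 0, (a, t) ∈ A ∧ δ (a, t) ≠ 0 := by
  obtain ⟨U, hU, D, hD, h1⟩ := mem_nhds_prod_iff.1 (inter_mem hA h.eventually_analyticAt)
  obtain ⟨r, hr, h2⟩ := Metric.mem_nhds_iff.1 hD
  by_contra hn
  refine h0 (mem_of_superset (prod_mem_nhds hU (Metric.ball_mem_nhds 0 hr)) fun y hy => ?_)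
  have h3 : AnalyticOnNhd ℂ (fun t => δ (y.1, t)) (Metric.ball 0 r) := fun t ht =>
    AnalyticAt.comp (g := δ) (h1 (mk_mem_prod hy.1 (h2 ht))).2
      (analyticAt_const.prod analyticAt_id)
  rcases (h3 0 (Metric.mem_ball_self hr)).eventually_eq_zero_or_eventually_ne_zero with e | e
  · exact h3.eqOn_zero_of_preconnected_of_eventuallyEq_zero (convex_ball 0 r).isPreconnected
      (Metric.mem_ball_self hr) e hy.2
  · exact absurd ⟨y.1, (e.and (mem_nhdsWithin_of_mem_nhds hD)).mono fun t ht =>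
      ⟨(h1 (mk_mem_prod hy.1 ht.2)).1, ht.1⟩⟩ hn

end Vale.Agent.P269L.V
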